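import Mathlib

/-!
# The numeral of a word and a code halting exactly on an accepted numeral

A letter with index `i` becomes the bits `0^i 1`; a word becomes the concatenation followed by a final `1`,
read as a binary numeral, least significant bit first.
-/

namespace Vale.Agent.P193.MachineInput

open Turing Turing.PartrecToTM2

variable {At : Type} [Fintype At] [DecidableEq At]

/-- The index of a letter. -/
noncomputable def idx (a : At) : ℕ := (Fintype.equivFin At a : ℕ)

/-- The bits of a letter. -/
noncomputable def bitsOf (a : At) : List Γ' := List.replicate (idx a) Γ'.bit0 ++ [Γ'.bit1]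

/-- The numeral of a word. -/
noncomputable def numOf : List At → ℕ
  | [] => 1
  | a :: t => 2 ^ idx a * (2 * numOf t + 1)

theorem numOf_pos (t : List At) : 0 < numOf t := by
  induction t with
  | nil => simp [numOf]
  | cons a t ih => simp [numOf]

theorem cast_pos {n : ℕ} (hn : 0 < n) : ∃ p : PosNum, (n : Num) = Num.pos p ∧ (p : ℕ) = n := by
  have h : ((n : Num) : ℕ) = n := by simp
  cases hm : (n : Num) with
  | zero => rw [hm] at h; simp at h; omega
  | pos p => exact ⟨p, rfl, by rw [hm] at h; simpa using h⟩

theorem trNat_bit0 {n : ℕ} (hn : 0 < n) : trNat (2 * n) = Γ'.bit0 :: trNat n := by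
  obtain ⟨p, hp, hpn⟩ := cast_pos hn
  obtain ⟨q, hq, hqn⟩ := cast_pos (show 0 < 2 * n by omega)
  have : q = PosNum.bit0 p := by
    rw [← PosNum.to_nat_inj, PosNum.cast_bit0, hqn, hpn]
    omega
  rw [trNat, trNat, hq, hp, this]
  rfl

theorem trNat_bit1 {n : ℕ} (hn : 0 < n) : trNat (2 * n + 1) = Γ'.bit1 :: trNat n := by
  obtain ⟨p, hp, hpn⟩ := cast_pos hn
  obtain ⟨q, hq, hqn⟩ := cast_pos (show 0 < 2 * n + 1 by omega)
  have : q = PosNum.bit1 p := by
    rw [← PosNum.to_nat_inj, PosNum.cast_bit1, hqn, hpn]
    omega
  rw [trNat, trNat, hq, hp, this]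
  rfl

theorem trNat_pow_mul {n : ℕ} (hn : 0 < n) (i : ℕ) :
    trNat (2 ^ i * n) = List.replicate i Γ'.bit0 ++ trNat n := by
  induction i with
  | zero => simp
  | succ i ih =>
    have h : 0 < 2 ^ i * n := by positivity
    rw [show 2 ^ (i + 1) * n = 2 * (2 ^ i * n) by ring, trNat_bit0 h, ih, List.replicate_succ,
      List.cons_append]

/-- The machine input is a letter-by-letter substitution. -/
theorem trNat_numOf (t : List At) : trNat (numOf t) = t.flatMap bitsOf ++ [Γ'.bit1] := by
  induction t with
  | nil =>
    obtain ⟨p, hp, hpn⟩ := cast_pos (n := 1) one_pos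
    have : p = PosNum.one := by
      rw [← PosNum.to_nat_inj, hpn]; simp
    rw [numOf, trNat, hp, this]
    rfl
  | cons a t ih =>
    rw [numOf, trNat_pow_mul (Nat.succ_pos _), trNat_bit1 (numOf_pos t), ih]
    simp [bitsOf]

/-- The input list on the main stack. -/
theorem trList_numOf (t : List At) :
    trList [numOf t] = t.flatMap bitsOf ++ [Γ'.bit1, Γ'.cons] := by
  simp [trList, trNat_numOf]

theorem pow_mul_odd_inj {i j n m : ℕ} (h : 2 ^ i * (2 * n + 1) = 2 ^ j * (2 * m + 1)) :
    i = j ∧ n = m := by
  induction i generalizing j with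
  | zero =>
    cases j with
    | zero => simp at h; omega
    | succ j => rw [pow_succ'] at h; simp only [pow_zero, one_mul, mul_assoc] at h; omega
  | succ i ih =>
    cases j with
    | zero => rw [pow_succ'] at h; simp only [pow_zero, one_mul, mul_assoc] at h; omega
    | succ j =>
      rw [pow_succ', pow_succ', mul_assoc, mul_assoc] at h
      obtain ⟨h1, h2⟩ := ih (Nat.eq_of_mul_eq_mul_left two_pos h)
      exact ⟨by rw [h1], h2⟩

theorem numOf_injective : Function.Injective (numOf (At := At)) := by
  intro t
  induction t with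
  | nil =>
    intro s h
    cases s with
    | nil => rfl
    | cons b s =>
      have h' : 2 ^ 0 * (2 * 0 + 1) = 2 ^ idx b * (2 * numOf s + 1) := by simpa [numOf] using h
      have := pow_mul_odd_inj h'
      have := numOf_pos s
      omega
  | cons a t ih =>
    intro s h
    cases s with
    | nil =>
      have h' : 2 ^ 0 * (2 * 0 + 1) = 2 ^ idx a * (2 * numOf t + 1) := by simpa [numOf] using h.symm
      have := pow_mul_odd_inj h'
      have := numOf_pos t
      omega
    | cons b s =>
      simp only [numOf] at h
      obtain ⟨h1, h2⟩ := pow_mul_odd_inj h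
      rw [(Fintype.equivFin At).injective (Fin.ext h1), ih h2]

variable [Primcodable At]

theorem primrec_numOf : Primrec (numOf (At := At)) := by
  have hidx : Primrec (idx (At := At)) := Primrec.dom_finite _
  have hpow : Primrec₂ ((· ^ ·) : ℕ → ℕ → ℕ) :=
    Primrec₂.unpaired'.1 Nat.Primrec.pow
  have hmul : Primrec₂ ((· * ·) : ℕ → ℕ → ℕ) := Primrec.nat_mul
  have hadd : Primrec₂ ((· + ·) : ℕ → ℕ → ℕ) := Primrec.nat_add
  have h : Primrec fun t : List At =>
      t.foldr (fun a n => 2 ^ idx a * (2 * n + 1)) 1 := by
    have hl : Primrec fun p : List At × (At × ℕ) => 2 ^ idx p.2.1 * (2 * p.2.2 + 1) :=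
      hmul.comp (hpow.comp (Primrec.const 2) (hidx.comp (Primrec.fst.comp Primrec.snd)))
        (hadd.comp (hmul.comp (Primrec.const 2) (Primrec.snd.comp Primrec.snd)) (Primrec.const 1))
    exact Primrec.list_foldr (f := fun t : List At => t) (g := fun _ : List At => 1)
      (h := fun (_ : List At) (p : At × ℕ) => 2 ^ idx p.1 * (2 * p.2 + 1)) Primrec.id
      (Primrec.const 1) hl.to₂
  refine h.of_eq fun t => ?_
  induction t with
  | nil => rfl
  | cons a t ih => simp [numOf, ih]

/-- A code that halts on the numeral of `t` exactly when `D t` holds. -/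
theorem exists_code (D : List At → Bool) (hD : Computable D) :
    ∃ c : Turing.ToPartrec.Code, ∀ t, (c.eval [numOf t]).Dom ↔ D t = true := by
  let g : ℕ → ℕ → Bool := fun n m =>
    ((Encodable.decode (α := List At) m).map fun s => decide (numOf s = n) && D s).getD false
  have hg : Computable₂ g := by
    have hdec : Computable fun p : ℕ × ℕ => (Encodable.decode (α := List At) p.2) :=
      Computable.decode.comp Computable.snd
    have hbody : Computable₂ fun (p : ℕ × ℕ) (s : List At) => decide (numOf s = p.1) && D s := by
      have he : Computable₂ fun (a b : ℕ) => decide (a = b) :=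
        (Primrec.eq.decide : Primrec₂ fun (a b : ℕ) => decide (a = b)).to_comp
      exact ((Primrec.and.to_comp).comp
        (he.comp (primrec_numOf.to_comp.comp Computable.snd)
          (Computable.fst.comp Computable.fst)) (hD.comp Computable.snd)).to₂
    exact (Computable.option_getD (Computable.option_map hdec hbody)
      (Computable.const false)).to₂
  have hf : Partrec fun n => Nat.rfind fun m => Part.some (g n m) := Partrec.rfind hg.partrec₂
  have hf' : Nat.Partrec' (fun v : List.Vector ℕ 1 =>
      Nat.rfind fun m => Part.some (g v.head m)) := Nat.Partrec'.part_iff₁.2 hf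
  obtain ⟨c, hc⟩ := Turing.ToPartrec.Code.exists_code hf'
  refine ⟨c, fun t => ?_⟩
  have h := hc ⟨[numOf t], rfl⟩
  simp only at h
  rw [h]
  constructor
  · intro hd
    simp only [Part.map_eq_map, Part.map_Dom] at hd
    obtain ⟨m, hm, -⟩ := Nat.rfind_dom.1 hd
    simp only [Part.mem_some_iff] at hm
    change true = g (numOf t) m at hm
    simp only [g] at hm
    cases hs : (Encodable.decode (α := List At) m) with
    | none => simp [hs] at hm
    | some s =>
      simp [hs] at hm
      rw [← numOf_injective hm.1]
      exact hm.2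
  · intro hd
    simp only [Part.map_eq_map, Part.map_Dom]
    refine Nat.rfind_dom.2 ⟨Encodable.encode t, ?_, fun _ => trivial⟩
    simp only [Part.mem_some_iff]
    change true = g (numOf t) (Encodable.encode t)
    simp [g, hd]

end Vale.Agent.P193.MachineInput
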