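import Vale.Agent.P193.Machine.TM2
import Vale.Agent.P193.Machine.Input
import Vale.Agent.P193.Alg.Construct

/-!
# Every computable predicate is recognized by a transducer machine
-/

namespace Vale.Agent.P193

open Turing PartrecToTM2 QueueMachine

/-- `MachineExistence` holds. -/
theorem machineExistence : MachineExistence := by
  intro At _ _ _ D hD
  classical
  obtain ⟨c, hc⟩ := MachineInput.exists_code D hD
  let ks : List K' := [.main, .rev, .aux, .stack]
  let _ : Fintype K' := ⟨ks.toFinset, fun k => by cases k <;> simp [ks]⟩
  obtain ⟨N, hN⟩ := exists_machine_tm2 (At := At) tr (codeSupp c Cont'.halt)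
    (fun l hl => codeSupp_supports (Finset.Subset.refl _) l hl) ks (by simp [ks])
    (fun k => by cases k <;> simp [ks]) (trNormal c Cont'.halt)
    (codeSupp_self _ _ (trStmts₁_self _)) none MachineInput.bitsOf
    (fun a => by simp [MachineInput.bitsOf]) [Letter.sep K'.main]
    [.el Γ'.bit1, .el Γ'.cons, .sep K'.rev, .sep K'.aux, .sep K'.stack, .endm]
    (fun t => K'.elim (trList [MachineInput.numOf t]) [] [] []) (fun t => by
      simp [ks, segs, MachineInput.trNat_numOf, List.map_flatMap])
  refine ⟨N, fun t => ?_⟩
  refine (hN t).trans ?_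
  show (StateTransition.eval (TM2.step tr) (PartrecToTM2.init c [MachineInput.numOf t])).Dom ↔ _
  rw [PartrecToTM2.tr_eval]
  exact hc t

end Vale.Agent.P193
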