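import Vale.Agent.P193.Machine
import Mathlib

/-!
# Queue automata as transducer machines

A queue automaton pops the first letter and appends a word, changing its control state. One such
step is one sweep of a transducer: the consumed letter becomes dead and the control letter at the
right end is replaced by the appended word followed by the new control letter.
-/

namespace Vale.Agent.P193.QueueMachine

open StateTransition

/-- One step of a queue automaton; it stops on an empty queue. -/
def qstep {A Q : Type} (δ : Q → A → List A × Q) : Q × List A → Option (Q × List A)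
  | (_, []) => none
  | (q, a :: l) => some ((δ q a).2, l ++ (δ q a).1)

/-- The alphabet of the transducer machine. -/
inductive Cell (At A Q : Type)
  | lb
  | rb
  | inp (a : At)
  | dead
  | live (a : A)
  | ctrl (q : Q)
  deriving Fintype, DecidableEq

/-- Scanning states of the step transducer. -/
inductive Phase (A : Type)
  | scan (got : Option A)
  | subst
  | done
  deriving Fintype, DecidableEq

section

variable {At A Q : Type} [Fintype A] [DecidableEq A] (δ : Q → A → List A × Q)
  (q₀ : Q) (blk : At → A × List A) (pre suf : List A)

/-- The rules of the step transducer. -/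
def rule : Phase A → Cell At A Q → Option ((Cell At A Q × List (Cell At A Q)) × Phase A)
  | .scan none, .lb => some ((.dead, pre.map .live), .subst)
  | .subst, .inp a => some ((.live (blk a).1, (blk a).2.map .live), .subst)
  | .subst, .rb =>
    match suf with
    | [] => some ((.ctrl q₀, []), .done)
    | b :: s => some ((.live b, s.map .live ++ [.ctrl q₀]), .done)
  | .scan none, .dead => some ((.dead, []), .scan none)
  | .scan none, .live a => some ((.dead, []), .scan (some a))
  | .scan (some a), .live b => some ((.live b, []), .scan (some a))
  | .scan (some a), .ctrl q =>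
    match (δ q a).1 with
    | [] => some ((.ctrl (δ q a).2, []), .done)
    | b :: w => some ((.live b, w.map .live ++ [.ctrl (δ q a).2]), .done)
  | _, _ => none

/-- The step transducer. -/
def stepT : Transducer (Cell At A Q) where
  State := Phase A
  init := .scan none
  rule := rule δ q₀ blk pre suf
  final
    | .done => true
    | _ => false

/-- The transducer that looks for an accepting control letter. -/
def accT (acc : Q → Bool) : Transducer (Cell At A Q) where
  State := Bool
  init := false
  rule s c := some ((c, []), s || match c with | .ctrl q => acc q | _ => false)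
  final s := s

/-- Configurations with `m` dead letters. -/
def repr (m : ℕ) (q : Q) (l : List A) : List (Cell At A Q) :=
  List.replicate m .dead ++ (l.map .live ++ [.ctrl q])

theorem runFrom_dead (m : ℕ) (L : List (Cell At A Q)) :
    (stepT δ q₀ blk pre suf).runFrom (.scan none) (List.replicate m .dead ++ L) =
      ((stepT δ q₀ blk pre suf).runFrom (.scan none) L).map
        fun o => (List.replicate m .dead ++ o.1, o.2) := by
  induction m with
  | zero => simp
  | succ m ih =>
    rw [List.replicate_succ, List.cons_append]
    simp only [Transducer.runFrom, stepT, rule, Option.bind_some] at ih ⊢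
    rw [ih, Option.map_map]
    rfl

theorem runFrom_live (a : A) (q : Q) (l : List A) :
    (stepT (At := At) δ q₀ blk pre suf).runFrom (.scan (some a)) (l.map .live ++ [.ctrl q]) =
      some ((l ++ (δ q a).1).map .live ++ [.ctrl (δ q a).2], .done) := by
  induction l with
  | nil =>
    cases h : (δ q a).1 <;> simp [Transducer.runFrom, stepT, rule, h]
  | cons b l ih =>
    simp only [List.map_cons, List.cons_append, Transducer.runFrom, stepT, rule,
      Option.bind_some] at ih ⊢
    rw [ih]
    simp

theorem eval_repr_nil (m : ℕ) (q : Q) :
    (stepT (At := At) δ q₀ blk pre suf).eval (repr m q []) = none := by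
  unfold Transducer.eval repr
  rw [show (stepT (At := At) δ q₀ blk pre suf).init = Phase.scan none from rfl, runFrom_dead]
  simp [Transducer.runFrom, stepT, rule]

theorem eval_repr_cons (m : ℕ) (q : Q) (a : A) (l : List A) :
    (stepT (At := At) δ q₀ blk pre suf).eval (repr m q (a :: l)) =
      some (repr (m + 1) (δ q a).2 (l ++ (δ q a).1)) := by
  unfold Transducer.eval repr
  rw [show (stepT (At := At) δ q₀ blk pre suf).init = Phase.scan none from rfl, runFrom_dead]
  have h : (stepT (At := At) δ q₀ blk pre suf).runFrom (.scan none)
      ((a :: l).map .live ++ [.ctrl q]) =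
        some (.dead :: ((l ++ (δ q a).1).map .live ++ [.ctrl (δ q a).2]), .done) := by
    have h' := runFrom_live (At := At) δ q₀ blk pre suf a q l
    simp only [List.map_cons, List.cons_append, Transducer.runFrom, stepT, rule,
      Option.bind_some] at h' ⊢
    rw [h']
    rfl
  rw [h]
  simp [List.replicate_succ', stepT]

/-- The queue produced by the first sweep. -/
def startQueue (t : List At) : List A :=
  pre ++ t.flatMap (fun a => (blk a).1 :: (blk a).2) ++ suf

theorem runFrom_subst (t : List At) :
    (stepT (At := At) δ q₀ blk pre suf).runFrom .subst (t.map .inp ++ [.rb]) =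
      some ((t.flatMap (fun a => (blk a).1 :: (blk a).2) ++ suf).map .live ++ [.ctrl q₀],
        .done) := by
  induction t with
  | nil => cases suf <;> simp [Transducer.runFrom, stepT, rule]
  | cons b t ih =>
    simp only [List.map_cons, List.cons_append, Transducer.runFrom, stepT, rule,
      Option.bind_some] at ih ⊢
    rw [ih]
    simp

theorem eval_start (t : List At) :
    (stepT δ q₀ blk pre suf).eval (.lb :: t.map .inp ++ [.rb]) =
      some (repr 1 q₀ (startQueue blk pre suf t)) := by
  have h := runFrom_subst δ q₀ blk pre suf t
  unfold Transducer.eval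
  simp only [List.cons_append, Transducer.runFrom, stepT, rule, Option.bind_some] at h ⊢
  rw [h]
  simp [repr, startQueue]

theorem runFrom_acc (acc : Q → Bool) : ∀ (L : List (Cell At A Q)) (s : Bool),
    (accT acc).runFrom s L =
      some (L, s || L.any fun c => match c with | .ctrl q => acc q | _ => false)
  | [], s => by simp [Transducer.runFrom]; rfl
  | c :: L, s => by
    have ih := runFrom_acc acc L
    simp only [Transducer.runFrom, accT, Option.bind_some] at ih ⊢
    rw [ih]
    simp [List.any_cons, Bool.or_assoc]

theorem acc_eval (acc : Q → Bool) (L : List (Cell At A Q)) :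
    ((accT acc).eval L).isSome =
      L.any fun c => match c with | .ctrl q => acc q | _ => false := by
  have h := runFrom_acc acc L false
  simp only [Transducer.eval, accT, Bool.false_or] at h ⊢
  rw [h]
  cases hb : (L.any fun c => match c with | .ctrl q => acc q | _ => false) <;> simp

theorem acc_repr (acc : Q → Bool) (m : ℕ) (q : Q) (l : List A) :
    ((accT (At := At) acc).eval (repr m q l)).isSome = acc q := by
  rw [acc_eval]
  simp [repr, List.any_append]

theorem acc_start (acc : Q → Bool) (t : List At) :
    ((accT (A := A) acc).eval (.lb :: t.map .inp ++ [.rb])).isSome = false := by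
  rw [acc_eval]
  simp [List.any_append]

variable [Fintype At] [DecidableEq At] [Fintype Q] [DecidableEq Q]

/-- The machine of a queue automaton. -/
def machine (acc : Q → Bool) : Machine At where
  C := Cell At A Q
  lb := .lb
  rb := .rb
  sym := .inp
  step := stepT δ q₀ blk pre suf
  acc := accT acc

theorem machine_iter (acc : Q → Bool) (t : List At) : ∀ n L,
    (machine δ q₀ blk pre suf acc).step.iter (n + 1)
        ((machine δ q₀ blk pre suf acc).start t) = some L →
      ∃ m q l, L = repr m q l ∧ Reaches (qstep δ) (q₀, startQueue blk pre suf t) (q, l)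
  | 0, L, h => by
    change (stepT δ q₀ blk pre suf).eval (.lb :: t.map .inp ++ [.rb]) = some L at h
    rw [eval_start] at h
    replace h := Option.some.inj h
    exact ⟨1, q₀, _, h.symm, .refl⟩
  | n + 1, L, h => by
    rw [Transducer.iter, Option.bind_eq_some_iff] at h
    obtain ⟨L', hL', hL⟩ := h
    obtain ⟨m, q, l, rfl, hr⟩ := machine_iter acc t n L' hL'
    cases l with
    | nil =>
      change (stepT δ q₀ blk pre suf).eval (repr m q []) = some L at hL
      rw [eval_repr_nil] at hL
      cases hL
    | cons a l =>
      change (stepT δ q₀ blk pre suf).eval (repr m q (a :: l)) = some L at hL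
      rw [eval_repr_cons] at hL
      replace hL := Option.some.inj hL
      exact ⟨_, _, _, hL.symm, hr.tail rfl⟩

theorem machine_accepts (acc : Q → Bool) (t : List At) :
    (machine δ q₀ blk pre suf acc).Accepts t ↔
      ∃ c, Reaches (qstep δ) (q₀, startQueue blk pre suf t) c ∧ acc c.1 = true := by
  constructor
  · rintro ⟨n, hn⟩
    cases n with
    | zero =>
      change ((accT (A := A) acc).eval (.lb :: t.map .inp ++ [.rb])).isSome = true at hn
      rw [acc_start] at hn
      cases hn
    | succ n =>
      rcases h : (machine δ q₀ blk pre suf acc).step.iter (n + 1)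
          ((machine δ q₀ blk pre suf acc).start t) with - | L
      · rw [h] at hn; simp at hn
      · rw [h] at hn
        obtain ⟨m, q, l, rfl, hr⟩ := machine_iter δ q₀ blk pre suf acc t n L h
        change ((accT acc).eval (repr m q l)).isSome = true at hn
        rw [acc_repr] at hn
        exact ⟨_, hr, hn⟩
  · rintro ⟨c, hr, hc⟩
    have key : ∃ n m, (machine δ q₀ blk pre suf acc).step.iter n
        ((machine δ q₀ blk pre suf acc).start t) = some (repr m c.1 c.2) := by
      clear hc
      induction hr with
      | refl =>
        refine ⟨1, 1, ?_⟩
        change (stepT δ q₀ blk pre suf).eval (.lb :: t.map .inp ++ [.rb]) = _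
        rw [eval_start]
      | @tail b d _ hbd ih =>
        obtain ⟨n, m, hn⟩ := ih
        obtain ⟨q, _ | ⟨a, l⟩⟩ := b
        · simp [qstep] at hbd
        · simp only [qstep, Option.mem_def, Option.some.injEq] at hbd
          subst hbd
          refine ⟨n + 1, m + 1, ?_⟩
          rw [Transducer.iter, hn]
          exact eval_repr_cons δ q₀ blk pre suf m q a l
    obtain ⟨n, m, hn⟩ := key
    refine ⟨n, ?_⟩
    rw [hn]
    exact (acc_repr acc m c.1 c.2).trans hc

end

/-- A queue automaton with a closed finite set of control states gives a machine. -/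
theorem exists_machine {At A Q : Type} [Fintype At] [DecidableEq At] [Fintype A] [DecidableEq A]
    (δ : Q → A → List A × Q) (F : Finset Q) (hF : ∀ q ∈ F, ∀ a, (δ q a).2 ∈ F)
    (q₀ : Q) (hq₀ : q₀ ∈ F) (acc : Q → Prop) (blk : At → List A) (hblk : ∀ a, blk a ≠ [])
    (pre suf : List A) :
    ∃ M : Machine At, ∀ t, M.Accepts t ↔
      ∃ c, Reaches (qstep δ) (q₀, pre ++ t.flatMap blk ++ suf) c ∧ acc c.1 := by
  classical
  let δ' : {q // q ∈ F} → A → List A × {q // q ∈ F} :=
    fun q a => ((δ q.1 a).1, ⟨(δ q.1 a).2, hF q.1 q.2 a⟩)
  refine ⟨machine δ' ⟨q₀, hq₀⟩ (fun a => ((blk a).head (hblk a), (blk a).tail)) pre suf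
    (fun q => decide (acc q.1)), fun t => ?_⟩
  rw [machine_accepts]
  have hs : startQueue (fun a => ((blk a).head (hblk a), (blk a).tail)) pre suf t =
      pre ++ t.flatMap blk ++ suf := by
    simp [startQueue]
  rw [hs]
  constructor
  · rintro ⟨c, hr, hc⟩
    refine ⟨(c.1.1, c.2), ?_, of_decide_eq_true hc⟩
    clear hc
    induction hr with
    | refl => exact .refl
    | @tail b d _ hbd ih =>
      obtain ⟨q, _ | ⟨a, l⟩⟩ := b
      · simp [qstep] at hbd
      · simp only [qstep, Option.mem_def, Option.some.injEq] at hbd
        subst hbd
        exact ih.tail rfl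
  · rintro ⟨c, hr, hc⟩
    have key : ∃ h : c.1 ∈ F,
        Reaches (qstep δ') (⟨q₀, hq₀⟩, pre ++ t.flatMap blk ++ suf) (⟨c.1, h⟩, c.2) := by
      clear hc
      induction hr with
      | refl => exact ⟨hq₀, .refl⟩
      | @tail b d _ hbd ih =>
        obtain ⟨q, _ | ⟨a, l⟩⟩ := b
        · simp [qstep] at hbd
        · simp only [qstep, Option.mem_def, Option.some.injEq] at hbd
          subst hbd
          obtain ⟨h, ih⟩ := ih
          exact ⟨hF q h a, ih.tail rfl⟩
    obtain ⟨h, hr'⟩ := key
    exact ⟨_, hr', decide_eq_true hc⟩

end Vale.Agent.P193.QueueMachine
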