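import Vale.Agent.P193.Machine.Queue
import Mathlib

/-!
# A stack machine as a queue automaton

The stacks are written in the queue as segments, each after its separator, followed by an end
marker. One primitive statement is executed during one full rotation of the queue.
-/

namespace Vale.Agent.P193.QueueMachine

open StateTransition Turing TM2.Stmt

/-- Queue letters. -/
inductive Letter (K G : Type)
  | sep (k : K)
  | el (g : G)
  | endm
  deriving Fintype, DecidableEq

/-- What a rotation has read so far. -/
inductive Ph (G : Type)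
  | idle
  | grab
  | got (g : G)
  deriving Fintype, DecidableEq

variable {K G Λ σ : Type} [DecidableEq K]

/-- The control states. -/
abbrev Ctl (K G Λ σ : Type) := TM2.Stmt (fun _ : K => G) Λ σ × σ × Ph G

/-- The top of the stack that was read. -/
def Ph.top : Ph G → Option G
  | .got g => some g
  | _ => none

/-- A new separator closes an empty reading. -/
def Ph.close : Ph G → Ph G
  | .grab => .idle
  | p => p

/-- Whether the statement reads stack `k`. -/
def reads : TM2.Stmt (fun _ : K => G) Λ σ → K → Bool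
  | peek k' _ _, k => decide (k' = k)
  | pop k' _ _, k => decide (k' = k)
  | _, _ => false

/-- What the statement inserts after the separator of stack `k`. -/
def ins : TM2.Stmt (fun _ : K => G) Λ σ → σ → K → List (Letter K G)
  | push k' f _, v, k => if k' = k then [.el (f v)] else []
  | _, _, _ => []

/-- Whether the letter read is put back. -/
def keeps : TM2.Stmt (fun _ : K => G) Λ σ → Bool
  | pop _ _ _ => false
  | _ => true

variable (M : Λ → TM2.Stmt (fun _ : K => G) Λ σ)

/-- The statement and the local state after a statement. -/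
def nextQ : TM2.Stmt (fun _ : K => G) Λ σ → σ → Option G → TM2.Stmt (fun _ : K => G) Λ σ × σ
  | push _ _ q, v, _ => (q, v)
  | peek _ f q, v, h => (q, f v h)
  | pop _ f q, v, h => (q, f v h)
  | load f q, v, _ => (q, f v)
  | branch f q₁ q₂, v, _ => (cond (f v) q₁ q₂, v)
  | goto f, v, _ => (M (f v), v)
  | TM2.Stmt.halt, v, _ => (TM2.Stmt.halt, v)

/-- The queue automaton. -/
def qδ : Ctl K G Λ σ → Letter K G → List (Letter K G) × Ctl K G Λ σ
  | (q, v, ph), .endm =>
    ([.endm], ((nextQ M q v ph.top).1, (nextQ M q v ph.top).2, .idle))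
  | (q, v, ph), .sep k =>
    (.sep k :: ins q v k, (q, v, if reads q k then .grab else ph.close))
  | (q, v, .grab), .el g => (if keeps q then [.el g] else [], (q, v, .got g))
  | (q, v, .idle), .el g => ([.el g], (q, v, .idle))
  | (q, v, .got h), .el g => ([.el g], (q, v, .got h))

/-- The result of rotating a word. -/
def runw : Ctl K G Λ σ → List (Letter K G) → List (Letter K G) × Ctl K G Λ σ
  | s, [] => ([], s)
  | s, a :: w => ((qδ M s a).1 ++ (runw (qδ M s a).2 w).1, (runw (qδ M s a).2 w).2)

theorem runw_append (s : Ctl K G Λ σ) (w w' : List (Letter K G)) :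
    runw M s (w ++ w') =
      ((runw M s w).1 ++ (runw M (runw M s w).2 w').1, (runw M (runw M s w).2 w').2) := by
  induction w generalizing s with
  | nil => simp [runw]
  | cons a w ih => simp [runw, ih, List.append_assoc]

theorem reaches_runw (s : Ctl K G Λ σ) (w r : List (Letter K G)) :
    Reaches (qstep (qδ M)) (s, w ++ r) ((runw M s w).2, r ++ (runw M s w).1) := by
  induction w generalizing s r with
  | nil => simp only [runw, List.nil_append, List.append_nil]; exact .refl
  | cons a w ih =>
    refine Relation.ReflTransGen.head rfl ?_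
    simp only [runw]
    have h := ih (qδ M s a).2 (r ++ (qδ M s a).1)
    simpa [Reaches, List.append_assoc] using h

/-- The segments of a list of stacks. -/
def segs (ks : List K) (S : K → List G) : List (Letter K G) :=
  ks.flatMap fun k => .sep k :: (S k).map .el

theorem segs_update_of_notMem (ks : List K) (S : K → List G) {k : K} (x : List G) (h : k ∉ ks) :
    segs ks (Function.update S k x) = segs ks S := by
  induction ks with
  | nil => rfl
  | cons a ks ih =>
    simp only [List.mem_cons, not_or] at h
    simp only [segs, List.flatMap_cons] at ih ⊢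
    rw [Function.update_of_ne (Ne.symm h.1), ih h.2]

theorem runw_els (q : TM2.Stmt (fun _ : K => G) Λ σ) (v : σ) (ph : Ph G) (hph : ph ≠ .grab)
    (l : List G) : runw M (q, v, ph) (l.map .el) = (l.map .el, (q, v, ph)) := by
  induction l with
  | nil => rfl
  | cons g l ih => cases ph <;> simp_all [runw, qδ]

theorem runw_inactive (q : TM2.Stmt (fun _ : K => G) Λ σ) (v : σ) (S : K → List G) :
    ∀ (ks : List K), (∀ k ∈ ks, reads q k = false ∧ ins q v k = []) → ∀ ph,
      ∃ ph', runw M (q, v, ph) (segs ks S) = (segs ks S, (q, v, ph')) ∧ ph'.top = ph.top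
  | [], _, ph => ⟨ph, rfl, rfl⟩
  | k :: ks, h, ph => by
    obtain ⟨hr, hi⟩ := h k List.mem_cons_self
    obtain ⟨ph', h', ht⟩ :=
      runw_inactive q v S ks (fun k' hk' => h k' (List.mem_cons_of_mem _ hk')) ph.close
    have hc : ph.close.top = ph.top := by cases ph <;> rfl
    have hne : ph.close ≠ .grab := by cases ph <;> simp [Ph.close]
    refine ⟨ph', ?_, ht.trans hc⟩
    rw [show segs (k :: ks) S = ([.sep k] ++ (S k).map .el) ++ segs ks S by simp [segs],
      runw_append, runw_append]
    simp [runw, qδ, hr, hi, runw_els M q v _ hne, h']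

/-- Small steps of the stack machine; a halted machine stays where it is. -/
def small : TM2.Stmt (fun _ : K => G) Λ σ × σ × (K → List G) →
    TM2.Stmt (fun _ : K => G) Λ σ × σ × (K → List G)
  | (push k f q, v, S) => (q, v, Function.update S k (f v :: S k))
  | (peek k f q, v, S) => (q, f v (S k).head?, S)
  | (pop k f q, v, S) => (q, f v (S k).head?, Function.update S k (S k).tail)
  | (load f q, v, S) => (q, f v, S)
  | (branch f q₁ q₂, v, S) => (cond (f v) q₁ q₂, v, S)
  | (goto f, v, S) => (M (f v), v, S)
  | (TM2.Stmt.halt, v, S) => (TM2.Stmt.halt, v, S)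

/-- The queue configuration of a small-step configuration. -/
def enc (ks : List K) (c : TM2.Stmt (fun _ : K => G) Λ σ × σ × (K → List G)) :
    Ctl K G Λ σ × List (Letter K G) :=
  ((c.1, c.2.1, .idle), segs ks c.2.2 ++ [.endm])

theorem rotation (ks : List K) (hnd : ks.Nodup) (hks : ∀ k, k ∈ ks)
    (q : TM2.Stmt (fun _ : K => G) Λ σ) (v : σ) (S : K → List G) :
    runw M (q, v, .idle) (segs ks S ++ [.endm]) =
      (segs ks (small M (q, v, S)).2.2 ++ [.endm],
        ((small M (q, v, S)).1, (small M (q, v, S)).2.1, .idle)) := by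
  have plain : (∀ k, reads q k = false ∧ ins q v k = []) →
      ∀ h : Option G, h = none → runw M (q, v, .idle) (segs ks S ++ [.endm]) =
        (segs ks S ++ [.endm], ((nextQ M q v h).1, (nextQ M q v h).2, .idle)) := by
    intro hq h hh
    obtain ⟨ph', h', ht⟩ := runw_inactive M q v S ks (fun k _ => hq k) .idle
    subst hh
    rw [runw_append, h']
    have ht' : ph'.top = none := ht
    simp [runw, qδ, ht']
  have active : ∀ k, (∀ k', k' ≠ k → reads q k' = false ∧ ins q v k' = []) →
      ∀ (out : List G) (p : Ph G),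
      runw M (q, v, .idle) (.sep k :: (S k).map .el) = (.sep k :: out.map .el, (q, v, p)) →
      runw M (q, v, .idle) (segs ks S ++ [.endm]) =
        (segs ks (Function.update S k out) ++ [.endm],
          ((nextQ M q v p.top).1, (nextQ M q v p.top).2, .idle)) := by
    intro k hq out p hk
    obtain ⟨l₁, l₂, rfl⟩ := List.append_of_mem (hks k)
    rw [List.nodup_append] at hnd
    have n₁ : k ∉ l₁ := fun h => hnd.2.2 k h k List.mem_cons_self rfl
    have n₂ : k ∉ l₂ := (List.nodup_cons.1 hnd.2.1).1
    have aux : ∀ l : List K, k ∉ l → ∀ k' ∈ l, reads q k' = false ∧ ins q v k' = [] :=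
      fun l hl k' hk' => hq k' fun e => hl (e ▸ hk')
    obtain ⟨p₁, h₁, t₁⟩ := runw_inactive M q v S l₁ (aux l₁ n₁) .idle
    have hk₁ : runw M (q, v, p₁) (.sep k :: (S k).map .el) =
        (.sep k :: out.map .el, (q, v, p)) := by
      rw [← hk]
      have : p₁.close = .idle := by cases p₁ <;> simp_all [Ph.top, Ph.close]
      have h0 : (Ph.idle : Ph G).close = .idle := rfl
      simp [runw, qδ, this, h0]
    obtain ⟨p₂, h₂, t₂⟩ := runw_inactive M q v S l₂ (aux l₂ n₂) p
    have e : ∀ T : K → List G, segs (l₁ ++ k :: l₂) T =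
        segs l₁ T ++ ((.sep k :: (T k).map .el) ++ segs l₂ T) := by simp [segs]
    rw [e, e, segs_update_of_notMem l₁ S out n₁, segs_update_of_notMem l₂ S out n₂,
      Function.update_self, runw_append, runw_append, h₁]
    rw [runw_append, hk₁, h₂]
    simp [runw, qδ, t₂, List.append_assoc]
  cases q with
  | push k f q =>
    have := active k (fun k' h => by simp [reads, ins, Ne.symm h]) (f v :: S k) .idle (by
      simp [runw, qδ, reads, ins, Ph.close, runw_els])
    simpa [small, nextQ] using this
  | peek k f q =>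
    rcases hS : S k with - | ⟨g, l⟩
    · have := active k (fun k' h => by simp [reads, ins, Ne.symm h]) (S k) .grab (by
        simp [runw, qδ, reads, ins, hS])
      rw [Function.update_eq_self] at this
      simpa [small, nextQ, hS, Ph.top] using this
    · have := active k (fun k' h => by simp [reads, ins, Ne.symm h]) (S k) (.got g) (by
        simp [runw, qδ, reads, ins, keeps, hS, runw_els])
      rw [Function.update_eq_self] at this
      simpa [small, nextQ, hS, Ph.top] using this
  | pop k f q =>
    rcases hS : S k with - | ⟨g, l⟩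
    · have := active k (fun k' h => by simp [reads, ins, Ne.symm h]) (S k).tail .grab (by
        simp [runw, qδ, reads, ins, hS])
      simpa [small, nextQ, hS, Ph.top] using this
    · have := active k (fun k' h => by simp [reads, ins, Ne.symm h]) (S k).tail (.got g) (by
        simp [runw, qδ, reads, ins, keeps, hS, runw_els])
      simpa [small, nextQ, hS, Ph.top] using this
  | load f q => simpa [small, nextQ] using plain (fun k => ⟨rfl, rfl⟩) none rfl
  | branch f q₁ q₂ => simpa [small, nextQ] using plain (fun k => ⟨rfl, rfl⟩) none rfl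
  | goto f => simpa [small, nextQ] using plain (fun k => ⟨rfl, rfl⟩) none rfl
  | halt => simpa [small, nextQ] using plain (fun k => ⟨rfl, rfl⟩) none rfl

theorem enc_step (ks : List K) (hnd : ks.Nodup) (hks : ∀ k, k ∈ ks)
    (c : TM2.Stmt (fun _ : K => G) Λ σ × σ × (K → List G)) :
    Reaches₁ (qstep (qδ M)) (enc ks c) (enc ks (small M c)) := by
  obtain ⟨q, v, S⟩ := c
  rcases hw : segs ks S ++ [Letter.endm] with - | ⟨a, w⟩
  · simp at hw
  refine Relation.TransGen.head' (b := ((qδ M (q, v, .idle) a).2, w ++ (qδ M (q, v, .idle) a).1))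
    (by simp [enc, hw, qstep]) ?_
  have h := reaches_runw M (qδ M (q, v, .idle) a).2 w (qδ M (q, v, .idle) a).1
  have hr := rotation M ks hnd hks q v S
  rw [hw] at hr
  simp only [runw, Prod.mk.injEq] at hr
  rw [hr.2, hr.1] at h
  exact h

theorem halt_stable {a b : Ctl K G Λ σ × List (Letter K G)}
    (h : Reaches (qstep (qδ M)) a b) (ha : a.1.1 = TM2.Stmt.halt) :
    b.1.1 = TM2.Stmt.halt := by
  induction h with
  | refl => exact ha
  | @tail b d _ hbd ih =>
    obtain ⟨⟨q, v, ph⟩, _ | ⟨x, l⟩⟩ := b
    · simp [qstep] at hbd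
    · simp only [qstep, Option.mem_def, Option.some.injEq] at hbd
      subst hbd
      subst ih
      cases x <;> cases ph <;> simp [qδ, nextQ]

theorem queue_halts_iff (ks : List K) (hnd : ks.Nodup) (hks : ∀ k, k ∈ ks)
    (c : TM2.Stmt (fun _ : K => G) Λ σ × σ × (K → List G)) :
    (∃ d, Reaches (qstep (qδ M)) (enc ks c) d ∧ d.1.1 = TM2.Stmt.halt) ↔
      ∃ n, ((small M)^[n] c).1 = TM2.Stmt.halt := by
  constructor
  · rintro ⟨d, hr, hd⟩
    have key : ∀ d, Reaches (qstep (qδ M)) (enc ks c) d →
        ∃ n, Reaches (qstep (qδ M)) d (enc ks ((small M)^[n] c)) := by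
      intro d hr
      induction hr with
      | refl => exact ⟨0, .refl⟩
      | @tail b d _ hbd ih =>
        obtain ⟨n, hn⟩ := ih
        rcases Relation.ReflTransGen.cases_head hn with rfl | ⟨e, he, hen⟩
        · refine ⟨n + 1, ?_⟩
          rw [Function.iterate_succ_apply']
          exact reaches₁_fwd (enc_step M ks hnd hks _) hbd
        · rw [Option.mem_unique hbd he]
          exact ⟨n, hen⟩
    obtain ⟨n, hn⟩ := key d hr
    exact ⟨n, halt_stable M hn hd⟩
  · rintro ⟨n, hn⟩
    refine ⟨enc ks ((small M)^[n] c), ?_, hn⟩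
    clear hn
    induction n with
    | zero => exact .refl
    | succ n ih =>
      rw [Function.iterate_succ_apply']
      exact ih.trans (enc_step M ks hnd hks _).to_reflTransGen

/-- The big-step configuration of a small-step configuration. -/
def fin (c : TM2.Stmt (fun _ : K => G) Λ σ × σ × (K → List G)) :
    TM2.Cfg (fun _ : K => G) Λ σ :=
  TM2.stepAux c.1 c.2.1 c.2.2

theorem fin_small (c : TM2.Stmt (fun _ : K => G) Λ σ × σ × (K → List G)) :
    Reaches (TM2.step M) (fin c) (fin (small M c)) := by
  obtain ⟨q, v, S⟩ := c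
  cases q with
  | goto f => exact .single rfl
  | branch f q₁ q₂ => cases h : f v <;> simp [small, fin, h] <;> exact .refl
  | _ => exact .refl

theorem small_reaches_stepAux (q : TM2.Stmt (fun _ : K => G) Λ σ) :
    ∀ v S, ∃ n, (small M)^[n] (q, v, S) =
      ((TM2.stepAux q v S).l.elim TM2.Stmt.halt M, (TM2.stepAux q v S).var,
        (TM2.stepAux q v S).stk) := by
  induction q with
  | push k f q ih => intro v S; obtain ⟨n, hn⟩ := ih v _; exact ⟨n + 1, hn⟩
  | peek k f q ih => intro v S; obtain ⟨n, hn⟩ := ih _ S; exact ⟨n + 1, hn⟩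
  | pop k f q ih => intro v S; obtain ⟨n, hn⟩ := ih _ _; exact ⟨n + 1, hn⟩
  | load f q ih => intro v S; obtain ⟨n, hn⟩ := ih _ S; exact ⟨n + 1, hn⟩
  | branch f q₁ q₂ ih₁ ih₂ =>
    intro v S
    cases h : f v
    · obtain ⟨n, hn⟩ := ih₂ v S
      exact ⟨n + 1, by rw [Function.iterate_succ_apply]; simpa [small, h] using hn⟩
    · obtain ⟨n, hn⟩ := ih₁ v S
      exact ⟨n + 1, by rw [Function.iterate_succ_apply]; simpa [small, h] using hn⟩
  | goto f => intro v S; exact ⟨1, rfl⟩
  | halt => intro v S; exact ⟨0, rfl⟩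

theorem tm2_halts_iff (l : Λ) (v : σ) (S : K → List G) :
    (StateTransition.eval (TM2.step M) ⟨some l, v, S⟩).Dom ↔
      ∃ n, ((small M)^[n] (M l, v, S)).1 = TM2.Stmt.halt := by
  rw [Part.dom_iff_mem]
  simp only [mem_eval]
  constructor
  · rintro ⟨b, hr, hb⟩
    have key : ∀ b, Reaches (TM2.step M) ⟨some l, v, S⟩ b →
        ∃ n, (small M)^[n] (M l, v, S) = (b.l.elim TM2.Stmt.halt M, b.var, b.stk) := by
      intro b hr
      induction hr with
      | refl => exact ⟨0, rfl⟩
      | @tail b d _ hbd ih =>
        obtain ⟨n, hn⟩ := ih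
        obtain ⟨_ | l', v', S'⟩ := b
        · simp at hbd
        · simp only [TM2.step, Option.mem_def, Option.some.injEq] at hbd
          subst hbd
          obtain ⟨m, hm⟩ := small_reaches_stepAux M (M l') v' S'
          refine ⟨m + n, ?_⟩
          rw [Function.iterate_add_apply, hn]
          exact hm
    obtain ⟨n, hn⟩ := key b hr
    refine ⟨n, ?_⟩
    obtain ⟨_ | l', v', S'⟩ := b
    · rw [hn]; rfl
    · simp at hb
  · rintro ⟨n, hn⟩
    refine ⟨fin ((small M)^[n] (M l, v, S)), ?_, ?_⟩
    · clear hn
      refine Relation.ReflTransGen.head (b := fin (M l, v, S)) rfl ?_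
      induction n with
      | zero => exact .refl
      | succ n ih =>
        rw [Function.iterate_succ_apply']
        exact ih.trans (fin_small M _)
    · rcases h : (small M)^[n] (M l, v, S) with ⟨q, v', S'⟩
      rw [h] at hn
      obtain rfl : q = TM2.Stmt.halt := hn
      rfl

/-- A stack machine with finite support gives a transducer machine. -/
theorem exists_machine_tm2 {At : Type} [Fintype At] [DecidableEq At] [Fintype K] [Fintype G]
    [DecidableEq G] [Fintype σ] (S : Finset Λ) (hS : ∀ l ∈ S, TM2.SupportsStmt S (M l))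
    (ks : List K) (hnd : ks.Nodup) (hks : ∀ k, k ∈ ks) (l₀ : Λ) (hl₀ : l₀ ∈ S) (v₀ : σ)
    (blk : At → List G) (hblk : ∀ a, blk a ≠ []) (pre suf : List (Letter K G))
    (stk : List At → K → List G)
    (hstk : ∀ t, pre ++ t.flatMap (fun a => (blk a).map Letter.el) ++ suf =
      segs ks (stk t) ++ [.endm]) :
    ∃ N : Machine At, ∀ t, N.Accepts t ↔
      (StateTransition.eval (TM2.step M) ⟨some l₀, v₀, stk t⟩).Dom := by
  classical
  let T : Finset (TM2.Stmt (fun _ : K => G) Λ σ) :=
    insert TM2.Stmt.halt (S.biUnion fun l => TM2.stmts₁ (M l))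
  have hM : ∀ l ∈ S, M l ∈ T := fun l hl =>
    Finset.mem_insert_of_mem (Finset.mem_biUnion.2 ⟨l, hl, TM2.stmts₁_self⟩)
  have hT : ∀ q ∈ T, ∀ v h, (nextQ M q v h).1 ∈ T := by
    intro q hq v h
    rcases Finset.mem_insert.1 hq with rfl | hq
    · exact hq
    obtain ⟨l, hl, hq⟩ := Finset.mem_biUnion.1 hq
    have sub : ∀ q', q' ∈ TM2.stmts₁ q → q' ∈ T := fun q' h' =>
      Finset.mem_insert_of_mem (Finset.mem_biUnion.2 ⟨l, hl, TM2.stmts₁_trans hq h'⟩)
    cases q with
    | goto f => exact hM _ (TM2.stmts₁_supportsStmt_mono hq (hS l hl) v)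
    | branch f q₁ q₂ =>
      cases hb : f v <;>
        exact sub _ (by simp [nextQ, hb, TM2.stmts₁, TM2.stmts₁_self])
    | halt => exact Finset.mem_insert_self _ _
    | _ => exact sub _ (by simp [nextQ, TM2.stmts₁, TM2.stmts₁_self])
  let F : Finset (Ctl K G Λ σ) := T ×ˢ Finset.univ
  have hF : ∀ s ∈ F, ∀ a, (qδ M s a).2 ∈ F := by
    rintro ⟨q, v, ph⟩ hs a
    have hq : q ∈ T := (Finset.mem_product.1 hs).1
    refine Finset.mem_product.2 ⟨?_, Finset.mem_univ _⟩
    cases a <;> cases ph <;> first | exact hq | exact hT q hq v _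
  obtain ⟨N, hN⟩ := exists_machine (qδ M) F hF (M l₀, v₀, .idle)
    (Finset.mem_product.2 ⟨hM l₀ hl₀, Finset.mem_univ _⟩) (fun s => s.1 = TM2.Stmt.halt)
    (fun a => (blk a).map Letter.el) (fun a => by simp [hblk a]) pre suf
  refine ⟨N, fun t => ?_⟩
  rw [hN, hstk, tm2_halts_iff, ← queue_halts_iff M ks hnd hks (M l₀, v₀, stk t)]
  rfl

end Vale.Agent.P193.QueueMachine
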